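import Mathlib

set_option autoImplicit false

/-! The cluster filtration (abstract form). -/

namespace Vale.Agent.P291.J

open Polynomial

/-- A polynomial whose leading coefficient is a unit is a nonzerodivisor modulo an extended
ideal. -/
lemma coeff_mem_of_mul {S : Type*} [CommRing S] (I : Ideal S) {p u : S[X]}
    (hp : IsUnit p.leadingCoeff) (h : ∀ n, (p * u).coeff n ∈ I) (n : ℕ) : u.coeff n ∈ I := by
  have h1 : (p * u).map (Ideal.Quotient.mk I) = 0 := by
    ext n
    rw [coeff_map, coeff_zero]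
    exact Ideal.Quotient.eq_zero_iff_mem.2 (h n)
  rw [Polynomial.map_mul] at h1
  have h2 : u.map (Ideal.Quotient.mk I) = 0 := by
    have hu := (hp.map (Ideal.Quotient.mk I))
    obtain ⟨c, hc⟩ := hp
    have h3 : (Polynomial.C (↑c⁻¹ : S) * p).Monic := by
      unfold Polynomial.Monic
      rw [Polynomial.leadingCoeff_C_mul_of_isUnit (Units.isUnit _), ← hc, Units.inv_mul]
    have h4 : ((Polynomial.C (↑c⁻¹ : S) * p).map (Ideal.Quotient.mk I)).Monic := h3.map _
    have h5 : ((Polynomial.C (↑c⁻¹ : S) * p).map (Ideal.Quotient.mk I)) *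
        u.map (Ideal.Quotient.mk I) = 0 := by
      rw [Polynomial.map_mul, mul_assoc, h1, mul_zero]
    rwa [h4.mul_right_eq_zero_iff] at h5
  have h6 := congrArg (fun q => q.coeff n) h2
  simp only [coeff_map, coeff_zero] at h6
  exact Ideal.Quotient.eq_zero_iff_mem.1 h6

section defs
variable {S : Type*} [CommRing S] {Y : Type*} [Fintype Y]

open Classical in
/-- product of the weights of the pairs separated by `r` -/
noncomputable def mm (D : Y → Y → S) (r : Setoid Y) : S :=
  ∏ p : Y × Y, if r p.1 p.2 then 1 else D p.1 p.2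

open Classical in
/-- product of the weights of the pairs not separated by `r` -/
noncomputable def th (θ : Y → Y → S) (r : Setoid Y) : S :=
  ∏ p : Y × Y, if r p.1 p.2 then θ p.1 p.2 else 1

open Classical in
/-- product of the weights of the pairs separated by `r'` but not by `r` -/
noncomputable def nn (D : Y → Y → S) (r r' : Setoid Y) : S :=
  ∏ p : Y × Y, if r p.1 p.2 ∧ ¬ r' p.1 p.2 then D p.1 p.2 else 1

/-- number of blocks -/
noncomputable def nb (r : Setoid Y) : ℕ := Nat.card (Quotient r)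

lemma mm_mul_nn (D : Y → Y → S) {r r' : Setoid Y} (h : r' ≤ r) :
    mm D r * nn D r r' = mm D r' := by
  unfold mm nn
  rw [← Finset.prod_mul_distrib]
  refine Finset.prod_congr rfl fun p _ => ?_
  by_cases h1 : r p.1 p.2
  · by_cases h2 : r' p.1 p.2 <;> simp [h1, h2]
  · have h2 : ¬ r' p.1 p.2 := fun h3 => h1 (h h3)
    simp [h1, h2]

lemma nn_dvd_mm (D : Y → Y → S) (r σ : Setoid Y) : nn D r (r ⊓ σ) ∣ mm D σ := by
  unfold mm nn
  refine Finset.prod_dvd_prod_of_dvd _ _ fun p _ => ?_
  by_cases h1 : r p.1 p.2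
  · by_cases h2 : σ p.1 p.2
    · have h3 : (r ⊓ σ) p.1 p.2 := ⟨h1, h2⟩
      simp [h3]
    · have h3 : ¬ (r ⊓ σ) p.1 p.2 := fun h4 => h2 h4.2
      simp [h1, h2, h3]
  · simp [h1]

lemma th_dvd_th (θ : Y → Y → S) {r σ : Setoid Y} (h : r ≤ σ) : th θ r ∣ th θ σ := by
  unfold th
  refine Finset.prod_dvd_prod_of_dvd _ _ fun p _ => ?_
  by_cases h1 : r p.1 p.2
  · have h2 : σ p.1 p.2 := h h1
    simp [h1, h2]
  · simp [h1]

lemma nb_le_card (r : Setoid Y) : nb r ≤ Fintype.card Y := by
  unfold nb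
  rw [← Nat.card_eq_fintype_card]
  exact Nat.card_le_card_of_surjective _ (Quotient.mk_surjective (s := r))

lemma eq_of_nb_le {r σ : Setoid Y} (h : r ≤ σ) (hn : nb r ≤ nb σ) : r = σ := by
  classical
  have : Fintype (Quotient r) := Fintype.ofFinite _
  have : Fintype (Quotient σ) := Fintype.ofFinite _
  let f : Quotient r → Quotient σ := Quotient.map' id fun a b hab => h hab
  have hf : Function.Surjective f := by
    intro q
    obtain ⟨a, rfl⟩ := Quotient.mk_surjective q
    exact ⟨Quotient.mk r a, rfl⟩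
  have hc : Fintype.card (Quotient r) = Fintype.card (Quotient σ) := by
    refine le_antisymm ?_ (Fintype.card_le_of_surjective f hf)
    simpa [nb, Nat.card_eq_fintype_card] using hn
  have hb : Function.Bijective f := (Fintype.bijective_iff_surjective_and_card f).2 ⟨hf, hc⟩
  refine le_antisymm h fun a b hab => ?_
  have h1 : f (Quotient.mk r a) = f (Quotient.mk r b) := Quotient.sound hab
  exact Quotient.exact (hb.1 h1)

/-- translations of subsets which do not contain `pt` -/
structure Trans (D θ : Y → Y → S) (pt : Y) where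
  τ : Set Y → S →+* S[X]
  τ0 : ∀ C s, (τ C s).coeff 0 = s
  τD : ∀ C a b, pt ∉ C → (a ∈ C ↔ b ∈ C) → τ C (D a b) = Polynomial.C (D a b)
  τθ : ∀ C a b, pt ∉ C → (a ∈ C ↔ b ∈ C) → τ C (θ a b) = Polynomial.C (θ a b)
  τu : ∀ C a b, pt ∉ C → ¬ (a ∈ C ↔ b ∈ C) → IsUnit (τ C (D a b)).leadingCoeff

/-- ideal of the cuts of the blocks of `r` -/
noncomputable def JJ (D : Y → Y → S) (r : Setoid Y) : Ideal S :=
  Ideal.span {p | ∃ r' : Setoid Y, r' < r ∧ p = nn D r r'}

lemma mm_mem_JJ (D : Y → Y → S) {r σ : Setoid Y} (h : ¬ r ≤ σ) : mm D σ ∈ JJ D r := by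
  refine Ideal.mem_of_dvd _ (nn_dvd_mm D r σ) (Ideal.subset_span ⟨r ⊓ σ, ?_, rfl⟩)
  refine lt_of_le_of_ne inf_le_left fun he => h ?_
  rw [← he]
  exact inf_le_right

/-- ideal modulo which `mm D r` is a nonzerodivisor -/
noncomputable def II (D θ : Y → Y → S) (r : Setoid Y) : Ideal S :=
  Ideal.span {th θ r} ⊔ JJ D r

lemma II_le {D θ : Y → Y → S} {pt : Y} (t : Trans D θ pt) (r : Setoid Y) (a : Y)
    (ha : ¬ r pt a) {s : S} (hs : s ∈ II D θ r) :
    t.τ {x | r x a} s ∈ (II D θ r).map (Polynomial.C : S →+* S[X]) := by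
  have hmem : ∀ p : Y × Y, r p.1 p.2 → (p.1 ∈ {x | r x a} ↔ p.2 ∈ {x | r x a}) :=
    fun p hp => ⟨fun h => r.trans (r.symm hp) h, fun h => r.trans hp h⟩
  have h : II D θ r ≤ ((II D θ r).map (Polynomial.C : S →+* S[X])).comap (t.τ {x | r x a}) := by
    refine sup_le (Ideal.span_le.2 ?_) (Ideal.span_le.2 ?_)
    · rintro _ rfl
      have h1 : t.τ {x | r x a} (th θ r) = Polynomial.C (th θ r) := by
        unfold th
        rw [map_prod, map_prod]
        refine Finset.prod_congr rfl fun p _ => ?_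
        split_ifs with hp
        · exact t.τθ _ _ _ ha (hmem p hp)
        · rw [map_one, map_one]
      change t.τ {x | r x a} (th θ r) ∈ (II D θ r).map (Polynomial.C : S →+* S[X])
      rw [h1]
      exact Ideal.mem_map_of_mem _ (Ideal.mem_sup_left (Ideal.mem_span_singleton_self _))
    · rintro _ ⟨r', hr', rfl⟩
      have h1 : t.τ {x | r x a} (nn D r r') = Polynomial.C (nn D r r') := by
        unfold nn
        rw [map_prod, map_prod]
        refine Finset.prod_congr rfl fun p _ => ?_
        split_ifs with hp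
        · exact t.τD _ _ _ ha (hmem p hp.1)
        · rw [map_one, map_one]
      change t.τ {x | r x a} (nn D r r') ∈ (II D θ r).map (Polynomial.C : S →+* S[X])
      rw [h1]
      exact Ideal.mem_map_of_mem _ (Ideal.mem_sup_right (Ideal.subset_span ⟨r', hr', rfl⟩))
  exact h hs

lemma nzd_one {D θ : Y → Y → S} {pt : Y} (t : Trans D θ pt) (r : Setoid Y) {a b : Y}
    (hab : ¬ r a b) {u : S} (hu : D a b * u ∈ II D θ r) : u ∈ II D θ r := by
  obtain ⟨c, hc, hcu⟩ : ∃ c, ¬ r pt c ∧ ¬ (r a c ↔ r b c) := by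
    by_cases h1 : r pt a
    · refine ⟨b, fun h2 => hab (r.trans (r.symm h1) h2), fun h2 => hab (h2.2 (r.refl b))⟩
    · exact ⟨a, h1, fun h2 => hab (r.symm (h2.1 (r.refl a)))⟩
  have h1 := II_le t r c hc hu
  rw [Ideal.mem_map_C_iff, map_mul] at h1
  have h2 := coeff_mem_of_mul (II D θ r) (t.τu {x | r x c} a b hc hcu) h1 0
  rwa [t.τ0] at h2

lemma nzd_prod {ι : Type*} (I : Ideal S) (s : Finset ι) (f : ι → S)
    (hf : ∀ i ∈ s, ∀ u, f i * u ∈ I → u ∈ I) {u : S} (hu : (∏ i ∈ s, f i) * u ∈ I) : u ∈ I := by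
  classical
  induction s using Finset.induction_on generalizing u with
  | empty => simpa using hu
  | insert i s his ih =>
    rw [Finset.prod_insert his, mul_assoc] at hu
    exact ih (fun j hj => hf j (Finset.mem_insert_of_mem hj))
      (hf i (Finset.mem_insert_self _ _) _ hu)

lemma nzd {D θ : Y → Y → S} {pt : Y} (t : Trans D θ pt) (r : Setoid Y) {u : S}
    (hu : mm D r * u ∈ II D θ r) : u ∈ II D θ r := by
  refine nzd_prod _ _ _ (fun p _ v hv => ?_) hu
  split_ifs at hv with hp
  · rwa [one_mul] at hv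
  · exact nzd_one t r hp hv

/-- span of the products with at least `l` blocks -/
noncomputable def KK (D : Y → Y → S) (l : ℕ) : Ideal S :=
  Ideal.span {p | ∃ r : Setoid Y, l ≤ nb r ∧ p = mm D r}

/-- span of the decorated products with at least `l` blocks -/
noncomputable def WW (D θ : Y → Y → S) (l : ℕ) : Ideal S :=
  Ideal.span {p | ∃ r : Setoid Y, l ≤ nb r ∧ p = mm D r * th θ r}

lemma WW_anti (D θ : Y → Y → S) {l l' : ℕ} (h : l ≤ l') : WW D θ l' ≤ WW D θ l :=
  Ideal.span_mono fun _ ⟨r, hr, hp⟩ => ⟨r, h.trans hr, hp⟩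

lemma mm_mul_JJ (D : Y → Y → S) (r : Setoid Y) {c : S} (hc : c ∈ JJ D r) :
    mm D r * c ∈ KK D (nb r + 1) := by
  have h : JJ D r ≤ Submodule.comap (LinearMap.mulLeft S (mm D r)) (KK D (nb r + 1)) := by
    refine Submodule.span_le.2 ?_
    rintro _ ⟨r', hr', rfl⟩
    change mm D r * nn D r r' ∈ KK D (nb r + 1)
    rw [mm_mul_nn D hr'.le]
    refine Ideal.subset_span ⟨r', ?_, rfl⟩
    by_contra h
    exact hr'.ne (eq_of_nb_le hr'.le (by omega))
  exact h hc

/-- THEOREM (cluster filtration) -/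
theorem cluster_aux {D θ : Y → Y → S} {pt : Y} (t : Trans D θ pt) (k : ℕ) :
    ∀ l, Fintype.card Y + 1 ≤ l + k → ∀ u ∈ WW D θ 0, u ∈ KK D l → u ∈ WW D θ l := by
  classical
  have : Finite (Setoid Y) := Finite.of_injective (fun r : Setoid Y => fun a b => r a b)
    fun r r' h => Setoid.ext fun a b => iff_of_eq (congrFun (congrFun h a) b)
  have : Fintype (Setoid Y) := Fintype.ofFinite _
  induction k with
  | zero =>
    intro l hl u _ hu
    have h0 : KK D l = ⊥ := by
      rw [eq_bot_iff]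
      refine Ideal.span_le.2 ?_
      rintro _ ⟨r, hr, rfl⟩
      exact absurd (nb_le_card r) (by omega)
    rw [h0, Ideal.mem_bot] at hu
    rw [hu]
    exact Ideal.zero_mem _
  | succ k ih =>
    intro l hl u hW hK
    set F : Finset (Setoid Y) := Finset.univ.filter fun r => nb r = l with hF
    have h1 : KK D l ≤ Submodule.span S (mm D '' (F : Set (Setoid Y))) ⊔ KK D (l + 1) := by
      refine Ideal.span_le.2 ?_
      rintro _ ⟨r, hr, rfl⟩
      rcases Nat.eq_or_lt_of_le hr with hr | hr
      · exact Ideal.mem_sup_left (Submodule.subset_span ⟨r, by simp [hF, hr], rfl⟩)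
      · exact Ideal.mem_sup_right (Ideal.subset_span ⟨r, hr, rfl⟩)
    obtain ⟨y, hy, z, hz, hyz⟩ := Submodule.mem_sup.1 (h1 hK)
    obtain ⟨c, hc⟩ := (Submodule.mem_span_image_finset_iff_exists_fun' S).1 hy
    have hI : ∀ r ∈ F, c r ∈ II D θ r := by
      intro r hr
      have hrl : nb r = l := by simpa [hF] using hr
      refine nzd t r ?_
      have hzr : z ∈ JJ D r := by
        have h2 : KK D (l + 1) ≤ JJ D r := by
          refine Ideal.span_le.2 ?_
          rintro _ ⟨σ, hσ, rfl⟩
          refine mm_mem_JJ D fun hle => ?_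
          have h3 := eq_of_nb_le hle (by omega)
          rw [h3] at hrl
          omega
        exact h2 hz
      have hur : u ∈ II D θ r := by
        have h2 : WW D θ 0 ≤ II D θ r := by
          refine Ideal.span_le.2 ?_
          rintro _ ⟨σ, _, rfl⟩
          by_cases hle : r ≤ σ
          · refine Ideal.mem_sup_left (Ideal.mul_mem_left _ _ ?_)
            exact Ideal.mem_span_singleton.2 (th_dvd_th θ hle)
          · exact Ideal.mem_sup_right (Ideal.mul_mem_right _ _ (mm_mem_JJ D hle))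
        exact h2 hW
      have hsum : ∑ i ∈ F.erase r, c i • mm D i ∈ JJ D r := by
        refine Submodule.sum_mem _ fun σ hσ => ?_
        rw [Finset.mem_erase] at hσ
        have hσl : nb σ = l := by simpa [hF] using hσ.2
        refine Ideal.mul_mem_left _ _ (mm_mem_JJ D fun hle => hσ.1 ?_)
        exact (eq_of_nb_le hle (by omega)).symm
      have h3 : mm D r * c r = u - z - ∑ i ∈ F.erase r, c i • mm D i := by
        rw [← hyz, ← hc, ← Finset.add_sum_erase F _ hr, smul_eq_mul]
        ring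
      rw [h3]
      exact Ideal.sub_mem _ (Ideal.sub_mem _ hur (Ideal.mem_sup_right hzr))
        (Ideal.mem_sup_right hsum)
    have hg : ∀ r, ∃ g, r ∈ F → c r - th θ r * g ∈ JJ D r := by
      intro r
      by_cases hr : r ∈ F
      · obtain ⟨a, ha, b, hb, hab⟩ := Submodule.mem_sup.1 (hI r hr)
        obtain ⟨g, hg⟩ := Ideal.mem_span_singleton'.1 ha
        refine ⟨g, fun _ => ?_⟩
        rw [← hab, ← hg, mul_comm (th θ r) g, add_sub_cancel_left]
        exact hb
      · exact ⟨0, fun h => absurd h hr⟩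
    choose g hg using hg
    have h4 : ∑ r ∈ F, g r • (mm D r * th θ r) ∈ WW D θ l := by
      refine Submodule.sum_mem _ fun r hr => Ideal.mul_mem_left _ _ (Ideal.subset_span ⟨r, ?_, rfl⟩)
      have hrl : nb r = l := by simpa [hF] using hr
      exact hrl.ge
    have h5 : u - ∑ r ∈ F, g r • (mm D r * th θ r) ∈ KK D (l + 1) := by
      have h6 : u - ∑ r ∈ F, g r • (mm D r * th θ r) =
          ∑ r ∈ F, mm D r * (c r - th θ r * g r) + z := by
        rw [← hyz, ← hc, add_sub_right_comm, ← Finset.sum_sub_distrib]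
        congr 1
        refine Finset.sum_congr rfl fun r _ => ?_
        rw [smul_eq_mul, smul_eq_mul]
        ring
      rw [h6]
      refine Ideal.add_mem _ (Submodule.sum_mem _ fun r hr => ?_) hz
      have hrl : nb r = l := by simpa [hF] using hr
      have h7 := mm_mul_JJ D r (hg r hr)
      rwa [hrl] at h7
    have h8 : u - ∑ r ∈ F, g r • (mm D r * th θ r) ∈ WW D θ (l + 1) :=
      ih (l + 1) (by omega) _ (Ideal.sub_mem _ hW (WW_anti D θ (Nat.zero_le l) h4)) h5
    have h9 := Ideal.add_mem _ (WW_anti D θ (Nat.le_succ l) h8) h4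
    rwa [sub_add_cancel] at h9

theorem cluster {D θ : Y → Y → S} {pt : Y} (t : Trans D θ pt) (l : ℕ) {u : S}
    (h1 : u ∈ WW D θ 0) (h2 : u ∈ KK D l) : u ∈ WW D θ l :=
  cluster_aux t (Fintype.card Y + 1) l (by omega) u h1 h2

end defs

end Vale.Agent.P291.J
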