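import Vale.Agent.P291.H.Defs
import Vale.Agent.P291.J.Cluster

set_option autoImplicit false

/-! Part I: elements `u` with `u * Delta` in the ideal of the cuts are sums over colourings. -/

namespace Vale.Agent.P291.J

open MvPolynomial Vale.Agent.P291.G Vale.Agent.P291.H

section trans
variable (D : QData) (Z : Type)

open Classical in
/-- translation of the marks in `C` -/
noncomputable def tr (C : Set (Option (B D))) : S D Z →ₐ[ℂ] Polynomial (S D Z) :=
  aeval (Sum.elim (fun b => if some b ∈ C then Polynomial.C (xx D Z b) + Polynomial.X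
    else Polynomial.C (xx D Z b)) fun z => Polynomial.C (X (Sum.inr z)))

lemma tr_xx_of {C : Set (Option (B D))} {b : B D} (h : some b ∈ C) :
    tr D Z C (xx D Z b) = Polynomial.C (xx D Z b) + Polynomial.X := by
  rw [tr, xx, aeval_X, Sum.elim_inl, if_pos h]
  rfl

lemma tr_xx_not {C : Set (Option (B D))} {b : B D} (h : some b ∉ C) :
    tr D Z C (xx D Z b) = Polynomial.C (xx D Z b) := by
  rw [tr, xx, aeval_X, Sum.elim_inl, if_neg h]
  rfl

lemma tr_inr (C : Set (Option (B D))) (z : Z) :
    tr D Z C (X (Sum.inr z)) = Polynomial.C (X (Sum.inr z)) := by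
  rw [tr, aeval_X, Sum.elim_inr]

lemma tr_coeff_zero (C : Set (Option (B D))) (s : S D Z) : (tr D Z C s).coeff 0 = s := by
  have h : ((Polynomial.aeval (0 : S D Z)).restrictScalars ℂ).comp (tr D Z C) =
      AlgHom.id ℂ (S D Z) := by
    refine MvPolynomial.algHom_ext fun i => ?_
    rcases i with b | z
    · by_cases hb : some b ∈ C
      · have h1 := tr_xx_of D Z hb
        rw [xx] at h1
        simp [h1]
      · have h1 := tr_xx_not D Z hb
        rw [xx] at h1
        simp [h1]
    · simp [tr_inr]
  have h2 := DFunLike.congr_fun h s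
  rw [Polynomial.coeff_zero_eq_eval_zero]
  simpa [Polynomial.aeval_def, Polynomial.eval₂_eq_eval_map] using h2

/-- product of the differences of the pairs at the same vertex -/
noncomputable def Delta : S D Z :=
  ∏ p : B D × B D, if p.1 ≠ p.2 ∧ p.1.1 = p.2.1 then xx D Z p.1 - xx D Z p.2 else 1

/-- differences -/
noncomputable def TH : Option (B D) → Option (B D) → S D Z
  | some b, some c => if b ≠ c ∧ b.1 = c.1 then xx D Z b - xx D Z c else 1
  | _, _ => 1

end trans

section
variable {D : QData} {Z : Type} (w : Wts D Z)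

/-- labelled weights -/
structure Lab where
  ta : D.A → S D Z
  tz : (i : D.I) → Fin (D.w i) → S D Z
  hta : ∀ C a, tr D Z C (ta a) = Polynomial.C (ta a)
  htz : ∀ C i k, tr D Z C (tz i k) = Polynomial.C (tz i k)
  hh : ∀ b c, w.h b c = ∏ a with D.src a = b.1 ∧ D.tgt a = c.1, (xx D Z c - xx D Z b + ta a)
  hz : ∀ b, w.z b = ∏ k : Fin (D.w b.1), (tz b.1 k - xx D Z b)

/-- half weights of the pairs -/
noncomputable def DD : Option (B D) → Option (B D) → S D Z
  | some b, some c => w.h b c
  | some b, none => w.z b
  | none, _ => 1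

lemma lc_add {R : Type*} [CommRing R] [Nontrivial R] (a b c : R) :
    IsUnit ((Polynomial.C a + Polynomial.X) - Polynomial.C b + Polynomial.C c).leadingCoeff := by
  have h : (Polynomial.C a + Polynomial.X) - Polynomial.C b + Polynomial.C c =
      Polynomial.X + Polynomial.C (a - b + c) := by
    rw [map_add, map_sub]
    ring
  rw [h, Polynomial.leadingCoeff_X_add_C]
  exact isUnit_one

lemma lc_sub {R : Type*} [CommRing R] [Nontrivial R] (a b c : R) :
    IsUnit (Polynomial.C a - (Polynomial.C b + Polynomial.X) + Polynomial.C c).leadingCoeff := by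
  have h : Polynomial.C a - (Polynomial.C b + Polynomial.X) + Polynomial.C c =
      -(Polynomial.X + Polynomial.C (b - a - c)) := by
    rw [map_sub, map_sub]
    ring
  rw [h, Polynomial.leadingCoeff_neg, Polynomial.leadingCoeff_X_add_C]
  exact isUnit_one.neg

lemma lc_prod {R : Type*} [CommRing R] [IsDomain R] {ι : Type*} (s : Finset ι)
    (f : ι → Polynomial R) (h : ∀ i ∈ s, IsUnit (f i).leadingCoeff) :
    IsUnit (∏ i ∈ s, f i).leadingCoeff := by
  rw [Polynomial.leadingCoeff_prod]
  exact Finset.prod_induction _ IsUnit (fun _ _ => IsUnit.mul) isUnit_one h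

/-- the translations -/
noncomputable def trans (L : Lab w) : Trans (DD w) (TH D Z) none where
  τ C := (tr D Z C : S D Z →+* Polynomial (S D Z))
  τ0 C s := tr_coeff_zero D Z C s
  τD C a b hC hab := by
    change tr D Z C (DD w a b) = Polynomial.C (DD w a b)
    rcases a with _ | a
    · rw [DD, map_one, map_one]
    · rcases b with _ | b
      · have ha : some a ∉ C := fun h => hC (hab.1 h)
        rw [DD, L.hz, map_prod, map_prod]
        refine Finset.prod_congr rfl fun k _ => ?_
        rw [map_sub, map_sub, L.htz, tr_xx_not D Z ha]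
      · rw [DD, L.hh, map_prod, map_prod]
        refine Finset.prod_congr rfl fun k _ => ?_
        rw [map_add, map_sub, map_add, map_sub, L.hta]
        by_cases ha : some a ∈ C
        · rw [tr_xx_of D Z ha, tr_xx_of D Z (hab.1 ha)]
          ring
        · rw [tr_xx_not D Z ha, tr_xx_not D Z fun h => ha (hab.2 h)]
  τθ C a b hC hab := by
    change tr D Z C (TH D Z a b) = Polynomial.C (TH D Z a b)
    rcases a with _ | a
    · rw [TH, map_one, map_one]
      rintro x y h
      cases h
    · rcases b with _ | b
      · rw [TH, map_one, map_one]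
        rintro x y _ h
        cases h
      · rw [TH]
        split_ifs
        · rw [map_sub, map_sub]
          by_cases ha : some a ∈ C
          · rw [tr_xx_of D Z ha, tr_xx_of D Z (hab.1 ha)]
            ring
          · rw [tr_xx_not D Z ha, tr_xx_not D Z fun h => ha (hab.2 h)]
        · rw [map_one, map_one]
  τu C a b hC hab := by
    change IsUnit (tr D Z C (DD w a b)).leadingCoeff
    rcases a with _ | a
    · rw [DD, map_one, Polynomial.leadingCoeff_one]
      exact isUnit_one
    · rcases b with _ | b
      · have ha : some a ∈ C := by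
          by_contra h
          exact hab ⟨fun h1 => absurd h1 h, fun h1 => absurd h1 hC⟩
        rw [DD, L.hz, map_prod]
        refine lc_prod _ _ fun k _ => ?_
        rw [map_sub, L.htz, tr_xx_of D Z ha]
        simpa using lc_sub (L.tz a.1 k) (xx D Z a) 0
      · rw [DD, L.hh, map_prod]
        refine lc_prod _ _ fun k _ => ?_
        rw [map_add, map_sub, L.hta]
        by_cases ha : some a ∈ C
        · have hb : some b ∉ C := fun h => hab ⟨fun _ => h, fun _ => ha⟩
          rw [tr_xx_of D Z ha, tr_xx_not D Z hb]
          exact lc_sub _ _ _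
        · have hb : some b ∈ C := by
            by_contra h
            exact hab ⟨fun h1 => absurd h1 ha, fun h1 => absurd h1 h⟩
          rw [tr_xx_not D Z ha, tr_xx_of D Z hb]
          exact lc_add _ _ _

/-- same-colour differences inside the classes of a colouring -/
noncomputable def Rnc (g : B D → ℕ) : S D Z :=
  ∏ p : B D × B D,
    if (p.1 ≠ p.2 ∧ p.1.1 = p.2.1) ∧ g p.1 = g p.2 then xx D Z p.1 - xx D Z p.2 else 1

/-- weights between the classes of a colouring, the class `0` contains infinity -/
noncomputable def Wg (g : B D → ℕ) : S D Z :=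
  (∏ p : B D × B D, if g p.1 ≠ g p.2 then w.h p.1 p.2 else 1) *
    ∏ b, if g b ≠ 0 then w.z b else 1

/-- ideal of the cuts -/
noncomputable def K0 : Ideal (S D Z) :=
  Ideal.span {p | ∃ N : Finset (B D), N.Nonempty ∧ p = e w N * e w Nᶜ * zs w N}

/-- extension of a colouring to infinity -/
def exc (g : B D → ℕ) : Option (B D) → ℕ
  | some b => g b
  | none => 0

lemma prod_option_sq {M : Type*} [CommMonoid M] {β : Type*} [Fintype β]
    (f : Option β × Option β → M) : ∏ p, f p =
      (∏ p : β × β, f (some p.1, some p.2)) * (∏ b : β, f (some b, none)) *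
        (∏ b : β, f (none, some b)) * f (none, none) := by
  rw [Fintype.prod_prod_type, Fintype.prod_option, Fintype.prod_option, Fintype.prod_prod_type]
  have h : ∏ x : β, ∏ y : Option β, f (some x, y) =
      (∏ b : β, f (some b, none)) * ∏ x : β, ∏ y : β, f (some x, some y) := by
    rw [← Finset.prod_mul_distrib]
    exact Finset.prod_congr rfl fun x _ => Fintype.prod_option _
  rw [h]
  simp only [mul_comm, mul_assoc]

lemma mm_eq (r : Setoid (Option (B D))) (g : B D → ℕ)
    (hg : ∀ a b, r a b ↔ exc g a = exc g b) : mm (DD w) r = Wg w g := by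
  classical
  rw [mm, prod_option_sq, Wg]
  dsimp only
  have h3 : ∏ b : B D, (if r none (some b) then 1 else DD w none (some b)) = 1 :=
    Finset.prod_eq_one fun b _ => by
      rw [DD, ite_self]
  have h4 : (if r none none then 1 else DD w none none) = 1 := by
    rw [DD, ite_self]
  rw [h3, h4, mul_one, mul_one]
  congr 1
  · refine Finset.prod_congr rfl fun p _ => ?_
    have h := hg (some p.1) (some p.2)
    by_cases h1 : g p.1 = g p.2
    · rw [if_pos (h.2 h1), if_neg fun h2 => h2 h1]
    · rw [if_neg fun h2 => h1 (h.1 h2), if_pos h1]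
      rfl
  · refine Finset.prod_congr rfl fun b _ => ?_
    have h := hg (some b) none
    by_cases h1 : g b = 0
    · rw [if_pos (h.2 h1), if_neg fun h2 => h2 h1]
    · rw [if_neg fun h2 => h1 (h.1 h2), if_pos h1]
      rfl

lemma TH_none_left (b : Option (B D)) : TH D Z none b = 1 := by
  rw [TH]
  rintro x y h
  cases h

lemma TH_none_right (a : Option (B D)) : TH D Z a none = 1 := by
  rw [TH]
  rintro x y _ h
  cases h

lemma th_eq (r : Setoid (Option (B D))) (g : B D → ℕ)
    (hg : ∀ a b, r a b ↔ exc g a = exc g b) : th (TH D Z) r = Rnc g := by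
  classical
  rw [th, prod_option_sq, Rnc]
  dsimp only
  have h3 : ∏ b : B D, (if r none (some b) then TH D Z none (some b) else 1) = 1 :=
    Finset.prod_eq_one fun b _ => by
      rw [TH_none_left, ite_self]
  have h2 : ∏ b : B D, (if r (some b) none then TH D Z (some b) none else 1) = 1 :=
    Finset.prod_eq_one fun b _ => by
      rw [TH_none_right, ite_self]
  have h4 : (if r none none then TH D Z none none else 1) = 1 := by
    rw [TH_none_left, ite_self]
  rw [h2, h3, h4, mul_one, mul_one, mul_one]
  refine Finset.prod_congr rfl fun p _ => ?_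
  have h := hg (some p.1) (some p.2)
  by_cases h1 : g p.1 = g p.2
  · rw [if_pos (h.2 h1), TH]
    exact if_congr (by simp [h1]) rfl rfl
  · rw [if_neg fun h2 => h1 (h.1 h2), if_neg fun h2 => h1 h2.2]

/-- a partition into few classes comes from a colouring -/
lemma exists_colouring (r : Setoid (Option (B D))) {m : ℕ} (hm : Fintype.card (B D) < m) :
    ∃ g : B D → Fin m, ∀ a b, r a b ↔ exc (fun b => (g b : ℕ)) a = exc (fun b => (g b : ℕ)) b := by
  classical
  have hfin : Fintype (Quotient r) := Fintype.ofFinite _
  have hcard : Fintype.card (Quotient r) ≤ Fintype.card (Fin m) := by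
    have h := nb_le_card r
    rw [nb, Nat.card_eq_fintype_card, Fintype.card_option] at h
    rw [Fintype.card_fin]
    omega
  obtain ⟨f⟩ := Function.Embedding.nonempty_of_card_le hcard
  have hm0 : 0 < m := by omega
  let c : Quotient r → Fin m := fun q => Equiv.swap (f (Quotient.mk r none)) ⟨0, hm0⟩ (f q)
  have hc : Function.Injective c := (Equiv.injective _).comp f.injective
  have hc0 : c (Quotient.mk r none) = ⟨0, hm0⟩ := Equiv.swap_apply_left _ _
  refine ⟨fun b => c (Quotient.mk r (some b)), fun a b => ?_⟩
  have h : ∀ a : Option (B D), exc (fun b => ((c (Quotient.mk r (some b)) : Fin m) : ℕ)) a =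
      ((c (Quotient.mk r a) : Fin m) : ℕ) := by
    rintro (_ | a)
    · rw [hc0]
      rfl
    · rfl
  rw [h, h, Fin.val_inj]
  exact ⟨fun hab => congrArg c (Quotient.sound hab), fun hab => Quotient.exact (hc hab)⟩

/-- PART I. -/
theorem partI (L : Lab w) {m : ℕ} (hm : Fintype.card (B D) < m) {u : S D Z}
    (hu : u * Delta D Z ∈ K0 w) :
    ∃ s : (B D → Fin m) → S D Z, u * Delta D Z =
      ∑ g ∈ Finset.univ.filter (fun g : B D → Fin m => ∃ b, (g b : ℕ) ≠ 0),
        s g * (Rnc (fun b => (g b : ℕ)) * Wg w fun b => (g b : ℕ)) := by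
  classical
  have h1 : u * Delta D Z ∈ WW (DD w) (TH D Z) 0 := by
    refine Ideal.mul_mem_left _ _ (Ideal.subset_span ⟨⊤, Nat.zero_le _, ?_⟩)
    have hg : ∀ a b : Option (B D), (⊤ : Setoid (Option (B D))) a b ↔
        exc (fun _ => 0) a = exc (fun _ => 0) b := by
      rintro (_ | a) (_ | b) <;> simp [exc, Setoid.top_def]
    rw [mm_eq w ⊤ (fun _ => 0) hg, th_eq ⊤ (fun _ => 0) hg, Wg, Rnc, Delta]
    simp
  have h2 : u * Delta D Z ∈ KK (DD w) 2 := by
    have h : K0 w ≤ KK (DD w) 2 := by
      refine Ideal.span_le.2 ?_
      rintro _ ⟨N, hN, rfl⟩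
      set g : B D → ℕ := fun b => if b ∈ N then 1 else 0 with hgdef
      let r : Setoid (Option (B D)) := Setoid.ker (exc g)
      have hg : ∀ a b, r a b ↔ exc g a = exc g b := fun a b => Iff.rfl
      refine Ideal.subset_span ⟨r, ?_, ?_⟩
      · obtain ⟨b, hb⟩ := hN
        rw [nb]
        have h3 : Nontrivial (Quotient r) := by
          refine ⟨⟨Quotient.mk r (some b), Quotient.mk r none, fun h4 => ?_⟩⟩
          have h5 : exc g (some b) = exc g none := Quotient.exact h4
          simp [exc, hgdef, hb] at h5
        exact Finite.one_lt_card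
      · rw [mm_eq w r g hg, Wg]
        have h3 : zs w N = ∏ b, if g b ≠ 0 then w.z b else 1 := by
          rw [zs, ← Finset.prod_filter]
          refine Finset.prod_congr ?_ fun _ _ => rfl
          ext b
          simp [hgdef]
        have h4 : e w N * e w Nᶜ = ∏ p : B D × B D, if g p.1 ≠ g p.2 then w.h p.1 p.2 else 1 := by
          rw [e, e, compl_compl, Fintype.prod_prod_type, ← Finset.prod_mul_prod_compl N]
          congr 1
          · refine Finset.prod_congr rfl fun b hb => ?_
            rw [← Finset.prod_filter]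
            refine Finset.prod_congr ?_ fun _ _ => rfl
            ext c
            simp [hgdef, hb]
          · refine Finset.prod_congr rfl fun b hb => ?_
            rw [← Finset.prod_filter]
            refine Finset.prod_congr ?_ fun _ _ => rfl
            ext c
            rw [Finset.mem_compl] at hb
            simp [hgdef, hb]
        rw [h3, h4]
    exact h hu
  have h3 := cluster (trans w L) 2 h1 h2
  have h4 : WW (DD w) (TH D Z) 2 ≤ Submodule.span (S D Z)
      ((fun g : B D → Fin m => Rnc (fun b => (g b : ℕ)) * Wg w fun b => (g b : ℕ)) ''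
        (Finset.univ.filter (fun g : B D → Fin m => ∃ b, (g b : ℕ) ≠ 0) :
          Finset (B D → Fin m))) := by
    refine Ideal.span_le.2 ?_
    rintro _ ⟨r, hr, rfl⟩
    obtain ⟨g, hg⟩ := exists_colouring r hm
    refine Submodule.subset_span ⟨g, ?_, ?_⟩
    · rw [Finset.mem_coe, Finset.mem_filter]
      refine ⟨Finset.mem_univ _, ?_⟩
      by_contra h
      push Not at h
      have h5 : ∀ a b, r a b := by
        intro a b
        rw [hg]
        rcases a with _ | a <;> rcases b with _ | b <;> simp [exc, h]
      have h6 : Subsingleton (Quotient r) := by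
        refine ⟨fun x y => ?_⟩
        obtain ⟨a, rfl⟩ := Quotient.mk_surjective x
        obtain ⟨b, rfl⟩ := Quotient.mk_surjective y
        exact Quotient.sound (h5 a b)
      rw [nb] at hr
      have h7 : Nat.card (Quotient r) ≤ 1 := Finite.card_le_one_iff_subsingleton.2 h6
      omega
    · change Rnc (fun b => (g b : ℕ)) * Wg w (fun b => (g b : ℕ)) = mm (DD w) r * th (TH D Z) r
      rw [mm_eq w r _ hg, th_eq r _ hg, mul_comm]
  obtain ⟨s, hs⟩ := (Submodule.mem_span_image_finset_iff_exists_fun' (S D Z)).1 (h4 h3)
  exact ⟨s, hs.symm⟩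

end

end Vale.Agent.P291.J
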