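import Vale.Agent.P291.H.Meas
import Vale.Agent.P291.J.PartI

set_option autoImplicit false

/-! The diagonal coefficient of a product of slots, and orbit sums. -/

namespace Vale.Agent.P291.J

open MvPolynomial Vale.Agent.P291.G Vale.Agent.P291.H

section
variable {D : QData} {Z : Type} (w : Wts D Z)

/-- class of a colour -/
def fb (g : B D → ℕ) (t : ℕ) : Finset (B D) := Finset.univ.filter fun b => g b = t

lemma mem_fb (g : B D → ℕ) (t : ℕ) (b : B D) : b ∈ fb g t ↔ g b = t := by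
  simp [fb]

lemma sum_ind_fb {m : ℕ} {g : B D → ℕ} (hg : ∀ b, g b < m) :
    ∑ t ∈ Finset.range m, ind D (fb g t) = ind D Finset.univ := by
  funext b
  rw [Finset.sum_apply]
  simp only [ind, mem_fb, Finset.mem_univ, if_true]
  rw [Finset.sum_ite_eq, if_pos (Finset.mem_range.2 (hg b))]

lemma exists_col {m : ℕ} {A : ℕ → Finset (B D)}
    (h : ∑ t ∈ Finset.range m, ind D (A t) = ind D Finset.univ) :
    ∃ g : B D → Fin m, ∀ t, t < m → A t = fb (fun b => (g b : ℕ)) t := by
  have h1 : ∀ b, ((Finset.range m).filter fun t => b ∈ A t).card = 1 := by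
    intro b
    have h2 := congrFun h b
    rw [Finset.sum_apply] at h2
    simp only [ind, Finset.mem_univ, if_true] at h2
    rw [Finset.sum_boole] at h2
    exact_mod_cast h2
  have h2 : ∀ b, ∃ t, t < m ∧ b ∈ A t ∧ ∀ s, s < m → b ∈ A s → s = t := by
    intro b
    obtain ⟨t, ht⟩ := Finset.card_eq_one.1 (h1 b)
    have h3 : t ∈ (Finset.range m).filter fun t => b ∈ A t := by
      rw [ht]
      exact Finset.mem_singleton_self _
    rw [Finset.mem_filter, Finset.mem_range] at h3
    refine ⟨t, h3.1, h3.2, fun s hs hbs => ?_⟩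
    have h4 : s ∈ (Finset.range m).filter fun t => b ∈ A t := by
      rw [Finset.mem_filter, Finset.mem_range]
      exact ⟨hs, hbs⟩
    rw [ht] at h4
    exact Finset.mem_singleton.1 h4
  choose g hg1 hg2 hg3 using h2
  refine ⟨fun b => ⟨g b, hg1 b⟩, fun t ht => ?_⟩
  ext b
  rw [mem_fb]
  exact ⟨fun h => (hg3 b t ht h).symm, fun h => h ▸ hg2 b⟩

lemma prod_single {ι : Type} (s : Finset ι) (l : ι → B D → ℤ) (c : ι → S D Z) :
    ∏ i ∈ s, (AddMonoidAlgebra.single (l i) (c i) : AddMonoidAlgebra (S D Z) (B D → ℤ)) =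
      AddMonoidAlgebra.single (∑ i ∈ s, l i) (∏ i ∈ s, c i) := by
  classical
  induction s using Finset.induction_on with
  | empty => rfl
  | insert i s hi ih =>
    rw [Finset.prod_insert hi, Finset.sum_insert hi, Finset.prod_insert hi, ih,
      AddMonoidAlgebra.single_mul_single]

lemma coeff_prod_slots (m : ℕ) (c : ℕ → Finset (B D) → S D Z) :
    (∏ t ∈ Finset.range m, ∑ A, (AddMonoidAlgebra.single (ind D A) (c t A) :
      AddMonoidAlgebra (S D Z) (B D → ℤ))).coeff (ind D Finset.univ) =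
      ∑ g : B D → Fin m, ∏ t ∈ Finset.range m, c t (fb (fun b => (g b : ℕ)) t) := by
  classical
  rw [Finset.prod_range, Finset.prod_univ_sum, Fintype.piFinset_univ,
    AddMonoidAlgebra.coeff_sum, Finsupp.finsetSum_apply]
  have h1 : ∀ A : Fin m → Finset (B D),
      (∏ t : Fin m, (AddMonoidAlgebra.single (ind D (A t)) (c t (A t)) :
        AddMonoidAlgebra (S D Z) (B D → ℤ))).coeff (ind D Finset.univ) =
      if ∑ t, ind D (A t) = ind D Finset.univ then ∏ t : Fin m, c t (A t) else 0 := by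
    intro A
    rw [prod_single, AddMonoidAlgebra.coeff_single, Finsupp.single_apply]
  rw [Finset.sum_congr rfl fun A _ => h1 A, ← Finset.sum_filter]
  have h2 : (Finset.univ.filter fun A : Fin m → Finset (B D) =>
      ∑ t, ind D (A t) = ind D Finset.univ) = Finset.univ.image
        fun (g : B D → Fin m) (t : Fin m) => fb (fun b => (g b : ℕ)) t := by
    ext A
    rw [Finset.mem_filter, Finset.mem_image]
    constructor
    · rintro ⟨-, hA⟩
      have h3 : ∑ t ∈ Finset.range m, ind D (if h : t < m then A ⟨t, h⟩ else ∅) =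
          ind D Finset.univ := by
        rw [Finset.sum_range, ← hA]
        refine Finset.sum_congr rfl fun t _ => ?_
        rw [dif_pos t.2]
      obtain ⟨g, hg⟩ := exists_col (A := fun t => if h : t < m then A ⟨t, h⟩ else ∅) h3
      refine ⟨g, Finset.mem_univ _, ?_⟩
      funext t
      rw [← hg t t.2]
      exact dif_pos t.2
    · rintro ⟨g, -, rfl⟩
      refine ⟨Finset.mem_univ _, ?_⟩
      rw [← Finset.sum_range (fun t => ind D (fb (fun b => (g b : ℕ)) t))]
      exact sum_ind_fb fun b => (g b).2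
  rw [h2, Finset.sum_image]
  · refine Finset.sum_congr rfl fun g _ => ?_
    rw [Finset.prod_range]
  · intro g _ g' _ h
    funext b
    have h3 : fb (fun b => (g b : ℕ)) (g b) = fb (fun b => (g' b : ℕ)) (g b) :=
      congrFun h (g b)
    have h4 : b ∈ fb (fun b => (g b : ℕ)) (g b) := (mem_fb _ _ _).2 rfl
    rw [h3, mem_fb] at h4
    exact (Fin.ext h4).symm

/-- weights of a colouring, slot by slot -/
lemma prod_e (m : ℕ) {g : B D → ℕ} (hg : ∀ b, g b < m) :
    ∏ t ∈ Finset.range m, (e w (fb g t) * zs w (fb g t) ^ ep 1 t) = Wg w g := by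
  classical
  rw [Finset.prod_mul_distrib, Wg]
  congr 1
  · have h1 : ∀ t, e w (fb g t) = ∏ b : B D, if g b = t then
        (∏ c : B D, if g b ≠ g c then w.h b c else 1) else 1 := by
      intro t
      rw [e, fb, Finset.prod_filter]
      refine Finset.prod_congr rfl fun b _ => ?_
      split_ifs with hb
      · rw [← Finset.prod_filter]
        refine Finset.prod_congr ?_ fun _ _ => rfl
        ext c
        simp [← hb, eq_comm]
      · rfl
    rw [Finset.prod_congr rfl fun t _ => h1 t, Finset.prod_comm, Fintype.prod_prod_type]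
    refine Finset.prod_congr rfl fun b _ => ?_
    rw [Finset.prod_ite_eq, if_pos (Finset.mem_range.2 (hg b))]
  · have h1 : ∀ t, zs w (fb g t) ^ ep 1 t = ∏ b : B D, if g b = t then
        (if g b ≠ 0 then w.z b else 1) else 1 := by
      intro t
      rw [zs, fb, Finset.prod_filter, ← Finset.prod_pow]
      refine Finset.prod_congr rfl fun b _ => ?_
      by_cases hb : g b = t
      · rw [if_pos hb, if_pos hb, ep]
        by_cases ht : t = 0
        · rw [if_pos (by omega), pow_zero, if_neg (by omega)]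
        · rw [if_neg (by omega), pow_one, if_pos (by omega)]
      · rw [if_neg hb, if_neg hb, one_pow]
    rw [Finset.prod_congr rfl fun t _ => h1 t, Finset.prod_comm]
    refine Finset.prod_congr rfl fun b _ => ?_
    rw [Finset.prod_ite_eq, if_pos (Finset.mem_range.2 (hg b))]

/-- the complementary factors -/
lemma prod_Dl (m : ℕ) {g : B D → ℕ} (hg : ∀ b, g b < m) :
    (∏ t ∈ Finset.range m, Dl D Z (fb g t)) * Delta D Z = del D Z ^ m * Rnc g := by
  classical
  have h1 : Delta D Z = (∏ t ∈ Finset.range m, cr D Z (fb g t) (fb g t)ᶜ) * Rnc g := by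
    have h2 : ∀ t, cr D Z (fb g t) (fb g t)ᶜ = ∏ b : B D, if g b = t then
        (∏ c : B D, if g b ≠ g c then (if b.1 = c.1 then xx D Z b - xx D Z c else 1) else 1)
          else 1 := by
      intro t
      rw [cr, fb, Finset.prod_filter]
      refine Finset.prod_congr rfl fun b _ => ?_
      split_ifs with hb
      · have h3 : (Finset.univ.filter fun b : B D => g b = t)ᶜ =
            Finset.univ.filter fun c : B D => g b ≠ g c := by
          ext c
          simp [← hb, eq_comm]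
        rw [h3, Finset.prod_filter]
      · rfl
    rw [Finset.prod_congr rfl fun t _ => h2 t, Finset.prod_comm]
    have h3 : ∏ b : B D, ∏ t ∈ Finset.range m, (if g b = t then
        (∏ c : B D, if g b ≠ g c then (if b.1 = c.1 then xx D Z b - xx D Z c else 1) else 1)
          else 1) = ∏ p : B D × B D, if g p.1 ≠ g p.2 then
            (if p.1.1 = p.2.1 then xx D Z p.1 - xx D Z p.2 else 1) else 1 := by
      rw [Fintype.prod_prod_type]
      refine Finset.prod_congr rfl fun b _ => ?_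
      rw [Finset.prod_ite_eq, if_pos (Finset.mem_range.2 (hg b))]
    rw [h3, Rnc, ← Finset.prod_mul_distrib, Delta]
    refine Finset.prod_congr rfl fun p _ => ?_
    by_cases h4 : g p.1 = g p.2
    · simp [h4]
    · have h5 : p.1 ≠ p.2 := fun h => h4 (by rw [h])
      by_cases h6 : p.1.1 = p.2.1
      · simp [h4, h5, h6]
      · simp [h4, h6]
  have h2 : del D Z ^ m = ∏ t ∈ Finset.range m, (cr D Z (fb g t) (fb g t)ᶜ * Dl D Z (fb g t)) := by
    rw [Finset.prod_congr rfl fun t _ => (Dl_spec D Z (fb g t)).symm, Finset.prod_const,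
      Finset.card_range]
  rw [h1, h2, Finset.prod_mul_distrib]
  ring

/-- the diagonal coefficient of a product of slots -/
lemma coeff_diag (m : ℕ) (f : ℕ → Finset (B D) → S D Z) :
    (∏ t ∈ Finset.range m, slot w (ep 1 t) (fun A => Dl D Z A * f t A)).coeff
        (ind D Finset.univ) * Delta D Z =
      del D Z ^ m * ∑ g : B D → Fin m, (∏ t ∈ Finset.range m, f t (fb (fun b => (g b : ℕ)) t)) *
        (Rnc (fun b => (g b : ℕ)) * Wg w fun b => (g b : ℕ)) := by
  have h1 : ∏ t ∈ Finset.range m, slot w (ep 1 t) (fun A => Dl D Z A * f t A) =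
      ∏ t ∈ Finset.range m, ∑ A, AddMonoidAlgebra.single (ind D A)
        (Dl D Z A * f t A * (e w A * zs w A ^ ep 1 t)) := rfl
  rw [h1, coeff_prod_slots m fun t A => Dl D Z A * f t A * (e w A * zs w A ^ ep 1 t),
    Finset.sum_mul, Finset.mul_sum]
  refine Finset.sum_congr rfl fun g _ => ?_
  have hg : ∀ b, (fun b => (g b : ℕ)) b < m := fun b => (g b).2
  rw [Finset.prod_mul_distrib, prod_e w m hg, Finset.prod_mul_distrib]
  have h2 := prod_Dl (Z := Z) m hg
  calc (∏ t ∈ Finset.range m, Dl D Z (fb (fun b => (g b : ℕ)) t)) *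
        (∏ t ∈ Finset.range m, f t (fb (fun b => (g b : ℕ)) t)) *
        Wg w (fun b => (g b : ℕ)) * Delta D Z
      = ((∏ t ∈ Finset.range m, Dl D Z (fb (fun b => (g b : ℕ)) t)) * Delta D Z) *
        ((∏ t ∈ Finset.range m, f t (fb (fun b => (g b : ℕ)) t)) *
        Wg w (fun b => (g b : ℕ))) := by ring
    _ = _ := by
      rw [h2]
      ring

end

section
variable {D : QData} {Z : Type}

/-- gluing -/
lemma exists_W (s : B D → B D) (h1 : ∀ b, (s b).1 = b.1) (h2 : Function.Injective s) :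
    ∃ σ : W D, ∀ b, perm D σ b = s b := by
  have h3 : ∀ (i : D.I) (r : Fin (D.v i)), ∃ r' : Fin (D.v i), s ⟨i, r⟩ = ⟨i, r'⟩ := by
    intro i r
    have h4 := h1 ⟨i, r⟩
    generalize s ⟨i, r⟩ = c at h4 ⊢
    obtain ⟨j, r'⟩ := c
    simp only at h4
    subst h4
    exact ⟨r', rfl⟩
  choose f hf using h3
  have hinj : ∀ i, Function.Injective (f i) := by
    intro i r r' h
    have h4 : s ⟨i, r⟩ = s ⟨i, r'⟩ := by rw [hf, hf, h]
    have h5 := h2 h4
    simpa using h5
  refine ⟨fun i => Equiv.ofBijective (f i) (Finite.injective_iff_bijective.1 (hinj i)), ?_⟩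
  rintro ⟨i, r⟩
  rw [hf]
  rfl

lemma perm_ext {σ τ : W D} (h : ∀ b, perm D σ b = perm D τ b) : σ = τ := by
  funext i
  ext1 r
  have h1 := h ⟨i, r⟩
  simpa [perm] using h1

lemma fb_comp (σ : W D) (g : B D → ℕ) (t : ℕ) :
    fb (fun b => g ((perm D σ).symm b)) t = mp D σ (fb g t) := by
  ext b
  rw [mem_fb, mem_mp', mem_fb]

lemma act_prod_pairs (σ : W D) (F : B D → B D → S D Z) :
    ∏ p : B D × B D, F (perm D σ p.1) (perm D σ p.2) = ∏ p : B D × B D, F p.1 p.2 :=
  Fintype.prod_equiv (Equiv.prodCongr (perm D σ) (perm D σ)) _ _ fun _ => rfl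

lemma perm_fst (σ : W D) (b : B D) : (perm D σ b).1 = b.1 := rfl

lemma act_Rnc (σ : W D) (g : B D → ℕ) :
    act D Z σ (Rnc g) = Rnc (fun b => g ((perm D σ).symm b)) := by
  rw [Rnc, Rnc, map_prod, ← act_prod_pairs σ (fun a b => if (a ≠ b ∧ a.1 = b.1) ∧
    g ((perm D σ).symm a) = g ((perm D σ).symm b) then xx D Z a - xx D Z b else 1)]
  refine Finset.prod_congr rfl fun p _ => ?_
  rw [Equiv.symm_apply_apply, Equiv.symm_apply_apply, perm_fst, perm_fst]
  have h : (perm D σ p.1 ≠ perm D σ p.2) ↔ p.1 ≠ p.2 := (perm D σ).injective.ne_iff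
  rw [apply_ite (act D Z σ), map_sub, act_xx, act_xx, map_one]
  exact if_congr (by rw [h]) rfl rfl

lemma act_Wg (w : Wts D Z) (σ : W D) (g : B D → ℕ) :
    act D Z σ (Wg w g) = Wg w (fun b => g ((perm D σ).symm b)) := by
  rw [Wg, Wg, map_mul, map_prod, map_prod, ← act_prod_pairs σ (fun a b =>
    if g ((perm D σ).symm a) ≠ g ((perm D σ).symm b) then w.h a b else 1),
    ← Equiv.prod_comp (perm D σ) (fun b => if g ((perm D σ).symm b) ≠ 0 then w.z b else 1)]
  congr 1
  · refine Finset.prod_congr rfl fun p _ => ?_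
    rw [Equiv.symm_apply_apply, Equiv.symm_apply_apply, apply_ite (act D Z σ), w.h_act, map_one]
  · refine Finset.prod_congr rfl fun b _ => ?_
    rw [Equiv.symm_apply_apply, apply_ite (act D Z σ), w.z_act, map_one]

lemma Delta_eq_Rnc : Delta D Z = Rnc fun _ => 0 := by
  rw [Delta, Rnc]
  refine Finset.prod_congr rfl fun p _ => ?_
  simp

lemma act_Delta (σ : W D) : act D Z σ (Delta D Z) = Delta D Z := by
  rw [Delta_eq_Rnc, act_Rnc]

/-- `p` depends only on the variables in `A` (and on the flavor variables) -/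
def Dep (A : Finset (B D)) (p : S D Z) : Prop :=
  ∀ σ τ : W D, (∀ b ∈ A, perm D σ b = perm D τ b) → act D Z σ p = act D Z τ p

/-- equivariant family generated by `p` at `A₀` -/
noncomputable def fam (A₀ : Finset (B D)) (p : S D Z) (A : Finset (B D)) : S D Z :=
  ∑ τ : W D, if mp D τ A₀ = A then act D Z τ p else 0

lemma orb_Dl (A₀ : Finset (B D)) (p : S D Z) :
    orb D Z A₀ (Dl D Z A₀ * p) = fun A => Dl D Z A * fam A₀ p A := by
  funext A
  rw [orb, fam, Finset.mul_sum]
  refine Finset.sum_congr rfl fun τ _ => ?_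
  by_cases h : mp D τ A₀ = A
  · have h1 : ((sgn D τ : ℤ) : S D Z) * ((sgn D τ : ℤ) : S D Z) = 1 := by
      rw [← Int.cast_mul, sgn_sq, Int.cast_one]
    rw [if_pos h, if_pos h, map_mul, act_Dl, h, ← mul_assoc, ← mul_assoc, h1, one_mul]
  · rw [if_neg h, if_neg h, mul_zero]

lemma mp_congr {σ τ : W D} {A : Finset (B D)} (h : ∀ b ∈ A, perm D σ b = perm D τ b) :
    mp D σ A = mp D τ A := by
  rw [mp, mp, Finset.map_eq_image, Finset.map_eq_image]
  exact Finset.image_congr h

lemma perm_mul_apply (σ τ : W D) (b : B D) : perm D (σ * τ) b = perm D σ (perm D τ b) := rfl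

lemma orbit_sum {m : ℕ} (g₀ : B D → Fin m) (p : ℕ → S D Z)
    (hp : ∀ t, t < m → Dep (fb (fun b => (g₀ b : ℕ)) t) (p t)) (G : (B D → Fin m) → S D Z) :
    ∃ N : ℕ, N ≠ 0 ∧ ∑ g : B D → Fin m, (∏ t ∈ Finset.range m,
        fam (fb (fun b => (g₀ b : ℕ)) t) (p t) (fb (fun b => (g b : ℕ)) t)) * G g =
      (N : S D Z) * ∑ σ : W D, act D Z σ (∏ t ∈ Finset.range m, p t) *
        G (fun b => g₀ ((perm D σ).symm b)) := by
  classical
  set A : Fin m → Finset (B D) := fun t => fb (fun b => (g₀ b : ℕ)) t with hA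
  have hA' : ∀ (t : Fin m) b, b ∈ A t ↔ g₀ b = t := by
    intro t b
    rw [hA, mem_fb, Fin.val_inj]
  set F : W D → Finset (Fin m → W D) := fun σ =>
    Finset.univ.filter fun τ => ∀ t, ∀ b ∈ A t, perm D (τ t) b = perm D σ b with hF
  have hF' : ∀ σ τ, τ ∈ F σ ↔ ∀ t, ∀ b ∈ A t, perm D (τ t) b = perm D σ b := by
    intro σ τ
    rw [hF, Finset.mem_filter]
    exact ⟨fun h => h.2, fun h => ⟨Finset.mem_univ _, h⟩⟩
  have hcard : ∀ σ, (F σ).card = (F 1).card := by
    intro σ
    refine (Finset.card_bij (fun τ _ => fun t => σ * τ t) ?_ ?_ ?_).symm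
    · intro τ hτ
      rw [hF'] at hτ ⊢
      intro t b hb
      rw [perm_mul_apply, hτ t b hb]
      rfl
    · intro τ _ τ' _ h
      funext t
      exact mul_left_cancel (congrFun h t)
    · intro τ hτ
      rw [hF'] at hτ
      refine ⟨fun t => σ⁻¹ * τ t, ?_, ?_⟩
      · rw [hF']
        intro t b hb
        rw [perm_mul_apply, hτ t b hb, ← perm_mul_apply, inv_mul_cancel]
      · funext t
        exact mul_inv_cancel_left _ _
  refine ⟨(F 1).card, ?_, ?_⟩
  · refine (Finset.card_pos.2 ⟨fun _ => 1, ?_⟩).ne'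
    rw [hF']
    exact fun _ _ _ => rfl
  -- left side
  have hL : ∀ g : B D → Fin m, (∏ t ∈ Finset.range m,
      fam (fb (fun b => (g₀ b : ℕ)) t) (p t) (fb (fun b => (g b : ℕ)) t)) * G g =
      ∑ τ : Fin m → W D, if ∀ t, mp D (τ t) (A t) = fb (fun b => (g b : ℕ)) t then
        (∏ t : Fin m, act D Z (τ t) (p t)) * G g else 0 := by
    intro g
    rw [Finset.prod_range]
    simp only [fam]
    rw [Finset.prod_univ_sum, Fintype.piFinset_univ, Finset.sum_mul]
    refine Finset.sum_congr rfl fun τ _ => ?_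
    rw [Finset.prod_ite_zero]
    simp only [Finset.mem_univ, true_implies, ite_mul, zero_mul]
    rfl
  have hR : ∀ σ : W D, ((F 1).card : S D Z) * (act D Z σ (∏ t ∈ Finset.range m, p t) *
      G (fun b => g₀ ((perm D σ).symm b))) =
      ∑ τ ∈ F σ, (∏ t : Fin m, act D Z (τ t) (p t)) * G (fun b => g₀ ((perm D σ).symm b)) := by
    intro σ
    have h1 : ∀ τ ∈ F σ, (∏ t : Fin m, act D Z (τ t) (p t)) *
        G (fun b => g₀ ((perm D σ).symm b)) = act D Z σ (∏ t ∈ Finset.range m, p t) *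
          G (fun b => g₀ ((perm D σ).symm b)) := by
      intro τ hτ
      rw [hF'] at hτ
      rw [Finset.prod_range, map_prod]
      congr 1
      exact Finset.prod_congr rfl fun t _ => hp t t.2 _ _ (hτ t)
    rw [Finset.sum_congr rfl h1, Finset.sum_const, nsmul_eq_mul]
    congr 2
    exact (hcard σ).symm
  have hF'' : ∑ σ : W D, ∑ τ ∈ F σ, (∏ t : Fin m, act D Z (τ t) (p t)) *
      G (fun b => g₀ ((perm D σ).symm b)) = ∑ x ∈ Finset.univ.sigma F,
        (∏ t : Fin m, act D Z (x.2 t) (p t)) * G (fun b => g₀ ((perm D x.1).symm b)) :=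
    Finset.sum_sigma' _ _ _
  have hG : ∑ g : B D → Fin m, ∑ τ : Fin m → W D,
      (if ∀ t, mp D (τ t) (A t) = fb (fun b => (g b : ℕ)) t then
        (∏ t : Fin m, act D Z (τ t) (p t)) * G g else 0) =
      ∑ x ∈ (Finset.univ : Finset ((B D → Fin m) × (Fin m → W D))).filter fun x =>
        ∀ t, mp D (x.2 t) (A t) = fb (fun b => (x.1 b : ℕ)) t,
          (∏ t : Fin m, act D Z (x.2 t) (p t)) * G x.1 := by
    rw [Finset.sum_filter, Fintype.sum_prod_type]
  rw [Finset.sum_congr rfl fun g _ => hL g, Finset.mul_sum, Finset.sum_congr rfl fun σ _ => hR σ,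
    hF'', hG]
  symm
  refine Finset.sum_bij (fun x _ => ((fun b => g₀ ((perm D x.1).symm b)), x.2)) ?_ ?_ ?_ ?_
  · rintro ⟨σ, τ⟩ hx
    have hx2 := (hF' _ _).1 (Finset.mem_sigma.1 hx).2
    rw [Finset.mem_filter]
    refine ⟨Finset.mem_univ _, fun t => ?_⟩
    rw [mp_congr (hx2 t)]
    exact (fb_comp σ (fun b => (g₀ b : ℕ)) t).symm
  · rintro ⟨σ, τ⟩ hx ⟨σ', τ'⟩ hx' h
    have hx2 := (hF' _ _).1 (Finset.mem_sigma.1 hx).2
    have hx2' := (hF' _ _).1 (Finset.mem_sigma.1 hx').2
    rw [Prod.mk.injEq] at h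
    obtain ⟨-, h2⟩ := h
    simp only at h2 hx2 hx2'
    subst h2
    have h3 : σ = σ' := by
      refine perm_ext fun b => ?_
      rw [← hx2 (g₀ b) b ((hA' _ _).2 rfl), ← hx2' (g₀ b) b ((hA' _ _).2 rfl)]
    rw [h3]
  · rintro ⟨g, τ⟩ hx
    rw [Finset.mem_filter] at hx
    have h2 : ∀ t, mp D (τ t) (A t) = fb (fun b => (g b : ℕ)) t := hx.2
    have h3 : ∀ b, g (perm D (τ (g₀ b)) b) = g₀ b := by
      intro b
      have h4 : perm D (τ (g₀ b)) b ∈ mp D (τ (g₀ b)) (A (g₀ b)) :=
        (mem_mp D _ _ _).2 ((hA' _ _).2 rfl)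
      rw [h2, mem_fb] at h4
      exact Fin.ext h4
    obtain ⟨σ, hσ⟩ := exists_W (fun b => perm D (τ (g₀ b)) b) (fun b => rfl) (by
      intro b c hbc
      have h4 : g₀ b = g₀ c := by rw [← h3 b, ← h3 c]; exact congrArg g hbc
      simp only [h4] at hbc
      exact (perm D _).injective hbc)
    refine ⟨⟨σ, τ⟩, ?_, ?_⟩
    · rw [Finset.mem_sigma]
      refine ⟨Finset.mem_univ _, (hF' _ _).2 fun t b hb => ?_⟩
      rw [hσ, (hA' _ _).1 hb]
    · rw [Prod.mk.injEq]
      refine ⟨?_, rfl⟩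
      funext b
      have h4 := h3 ((perm D σ).symm b)
      rw [← hσ, Equiv.apply_symm_apply] at h4
      exact h4.symm
  · rintro ⟨σ, τ⟩ _
    rfl

end

section
variable {D : QData} {Z : Type} (w : Wts D Z)

lemma prod_mem_prod {R : Type*} [CommRing R] [Algebra ℂ R] (m : ℕ) (M : ℕ → Submodule ℂ R)
    (y : ℕ → R) (h : ∀ j, j < m → y j ∈ M j) :
    ∏ j ∈ Finset.range m, y j ∈ ∏ j ∈ Finset.range m, M j := by
  induction m with
  | zero =>
    rw [Finset.range_zero, Finset.prod_empty, Finset.prod_empty]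
    exact Submodule.one_le.1 le_rfl
  | succ m ih =>
    rw [Finset.prod_range_succ, Finset.prod_range_succ]
    exact Submodule.mul_mem_mul (ih fun j hj => h j (by omega)) (h m (by omega))

/-- the type sequence of a colouring -/
def tyq (g : B D → ℕ) (t : ℕ) : D.I → ℕ := typ D (fb g t)

/-- the coefficient statement for one orbit and one polynomial -/
def Good (m : ℕ) (g₀ : B D → Fin m) (s : S D Z) : Prop :=
  ∃ X ∈ UU w (ep 1) m (tyq fun b => (g₀ b : ℕ)),
    X.coeff (ind D Finset.univ) * Delta D Z = del D Z ^ m * ∑ σ : W D,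
      act D Z σ (s * (Rnc (fun b => (g₀ b : ℕ)) * Wg w fun b => (g₀ b : ℕ)))

lemma good_add {m : ℕ} {g₀ : B D → Fin m} {s s' : S D Z} (h : Good w m g₀ s)
    (h' : Good w m g₀ s') : Good w m g₀ (s + s') := by
  obtain ⟨X, hX, h1⟩ := h
  obtain ⟨X', hX', h2⟩ := h'
  refine ⟨X + X', Submodule.add_mem _ hX hX', ?_⟩
  rw [AddMonoidAlgebra.coeff_add, Finsupp.add_apply, add_mul, h1, h2, ← mul_add,
    ← Finset.sum_add_distrib]
  congr 1
  refine Finset.sum_congr rfl fun σ _ => ?_
  rw [add_mul, map_add]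

lemma act_inr (σ : W D) (z : Z) : act D Z σ (X (Sum.inr z)) = X (Sum.inr z) := by
  rw [act, rename_X]
  rfl

lemma good_prod {m : ℕ} {g₀ : B D → Fin m} {p : ℕ → S D Z}
    (hp : ∀ t, t < m → Dep (fb (fun b => (g₀ b : ℕ)) t) (p t)) :
    Good w m g₀ (∏ t ∈ Finset.range m, p t) := by
  obtain ⟨N, hN, h⟩ := orbit_sum g₀ p hp
    fun g => Rnc (fun b => (g b : ℕ)) * Wg w fun b => (g b : ℕ)
  refine ⟨(N : ℂ)⁻¹ • ∏ t ∈ Finset.range m, slot w (ep 1 t)
    (orb D Z (fb (fun b => (g₀ b : ℕ)) t) (Dl D Z (fb (fun b => (g₀ b : ℕ)) t) * p t)),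
    Submodule.smul_mem _ _ ?_, ?_⟩
  · refine prod_mem_prod m _ _ fun j _ => ?_
    exact Submodule.mem_map_of_mem (orb_mem D Z _ _)
  · have h1 : (∏ t ∈ Finset.range m, slot w (ep 1 t) (orb D Z (fb (fun b => (g₀ b : ℕ)) t)
        (Dl D Z (fb (fun b => (g₀ b : ℕ)) t) * p t))) = ∏ t ∈ Finset.range m,
          slot w (ep 1 t) (fun A => Dl D Z A * fam (fb (fun b => (g₀ b : ℕ)) t) (p t) A) :=
      Finset.prod_congr rfl fun t _ => by rw [orb_Dl]
    have h2 := coeff_diag w m fun t A => fam (fb (fun b => (g₀ b : ℕ)) t) (p t) A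
    rw [← h1, h] at h2
    have h3 : ∀ σ : W D, act D Z σ ((∏ t ∈ Finset.range m, p t) *
        (Rnc (fun b => (g₀ b : ℕ)) * Wg w fun b => (g₀ b : ℕ))) =
        act D Z σ (∏ t ∈ Finset.range m, p t) *
          (Rnc (fun b => (g₀ ((perm D σ).symm b) : ℕ)) *
            Wg w fun b => (g₀ ((perm D σ).symm b) : ℕ)) := by
      intro σ
      rw [map_mul, map_mul, act_Rnc, act_Wg]
    rw [Finset.sum_congr rfl fun σ _ => h3 σ, AddMonoidAlgebra.coeff_smul, Finsupp.smul_apply,
      Algebra.smul_mul_assoc, h2]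
    have h4 : ((N : ℕ) : S D Z) = algebraMap ℂ (S D Z) N := (map_natCast _ _).symm
    rw [h4, ← Algebra.smul_def, mul_smul_comm, smul_smul, inv_mul_cancel₀ (by exact_mod_cast hN),
      one_smul]

/-- colour of a variable -/
def colv {m : ℕ} (g₀ : B D → Fin m) : B D ⊕ Z → ℕ := Sum.elim (fun b => (g₀ b : ℕ)) fun _ => 0

lemma good_monomial {m : ℕ} (hm : 0 < m) (g₀ : B D → Fin m) (u : B D ⊕ Z →₀ ℕ) (a : ℂ) :
    Good w m g₀ (monomial u a) := by
  classical
  have h1 : (monomial u a : S D Z) = ∏ t ∈ Finset.range m,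
      ((if t = 0 then C a else 1) *
        ∏ i ∈ u.support.filter (fun i => colv g₀ i = t), (X i : S D Z) ^ u i) := by
    rw [Finset.prod_mul_distrib, Finset.prod_ite_eq', if_pos (Finset.mem_range.2 hm),
      monomial_eq, Finsupp.prod]
    congr 1
    refine (Finset.prod_fiberwise_of_maps_to (fun i _ => ?_) _).symm
    rw [Finset.mem_range]
    rcases i with b | z
    · exact (g₀ b).2
    · exact hm
  rw [h1]
  refine good_prod w fun t _ σ τ hστ => ?_
  rw [map_mul, map_mul, map_prod, map_prod]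
  congr 1
  · split_ifs
    · rw [← algebraMap_eq, AlgHom.commutes, AlgHom.commutes]
    · rw [map_one, map_one]
  · refine Finset.prod_congr rfl fun i hi => ?_
    rw [map_pow, map_pow]
    congr 1
    rcases i with b | z
    · have h2 : (g₀ b : ℕ) = t := (Finset.mem_filter.1 hi).2
      have h3 := hστ b ((mem_fb _ _ _).2 h2)
      have h4 : ∀ ρ : W D, act D Z ρ (X (Sum.inl b)) = X (Sum.inl (perm D ρ b)) := by
        intro ρ
        rw [act, rename_X]
        rfl
      rw [h4, h4, h3]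
    · rw [act_inr, act_inr]

lemma good_all {m : ℕ} (hm : 0 < m) (g₀ : B D → Fin m) (s : S D Z) : Good w m g₀ s := by
  induction s using MvPolynomial.induction_on' with
  | monomial u a => exact good_monomial w hm g₀ u a
  | add p q hp hq => exact good_add w hp hq

lemma seqOK_tyq {m : ℕ} (g₀ : B D → Fin m) (h : ∃ b, (g₀ b : ℕ) ≠ 0) :
    seqOK m 1 (tyq (D := D) fun b => (g₀ b : ℕ)) := by
  refine ⟨fun j hj => ?_, ?_, ?_⟩
  · rw [tyq]
    have h1 : fb (fun b => (g₀ b : ℕ)) j = ∅ := by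
      ext b
      rw [mem_fb]
      have := (g₀ b).2
      simp only [Finset.notMem_empty, iff_false]
      omega
    rw [h1, typ_empty]
  · funext i
    rw [Finset.sum_apply, one_smul]
    have h2 : ∀ t, tyq (D := D) (fun b => (g₀ b : ℕ)) t i =
        ((Finset.univ.filter fun b : B D => b.1 = i).filter fun b => (g₀ b : ℕ) = t).card := by
      intro t
      rw [tyq, typ, fb, Finset.filter_filter, Finset.filter_filter]
      congr 1
      ext b
      simp [and_comm]
    rw [Finset.sum_congr rfl fun t _ => h2 t, ← Finset.card_eq_sum_card_fiberwise]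
    · have h3 := congrFun (typ_univ D) i
      rw [← h3, typ]
    · intro b _
      exact Finset.mem_coe.2 (Finset.mem_range.2 (g₀ b).2)
  · intro h3
    obtain ⟨b, hb⟩ := h
    have h4 := congrFun (congrFun h3 (g₀ b)) b.1
    rw [seqT, if_neg (by omega)] at h4
    have h5 : 0 < typ D (fb (fun b => (g₀ b : ℕ)) (g₀ b)) b.1 := by
      rw [typ, Finset.card_pos]
      exact ⟨b, Finset.mem_filter.2 ⟨(mem_fb _ _ _).2 rfl, rfl⟩⟩
    rw [tyq] at h4
    rw [h4] at h5
    exact absurd h5 (lt_irrefl _)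

lemma Delta_ne_zero : Delta D Z ≠ 0 := by
  rw [Delta, Finset.prod_ne_zero_iff]
  intro p _
  split_ifs with h
  · exact vdm_sub_ne D Z h.1
  · exact one_ne_zero

/-- From the cluster expansion to the slots. -/
theorem exists_X {m : ℕ} (hm : 0 < m) {r : S D Z} (hr : ∀ σ, act D Z σ r = r)
    {s : (B D → Fin m) → S D Z} (h : r * Delta D Z =
      ∑ g ∈ Finset.univ.filter (fun g : B D → Fin m => ∃ b, (g b : ℕ) ≠ 0),
        s g * (Rnc (fun b => (g b : ℕ)) * Wg w fun b => (g b : ℕ))) :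
    ∃ X ∈ ⨆ n : ℕ → D.I → ℕ, ⨆ _ : seqOK m 1 n, UU w (ep 1) m n,
      X.coeff (ind D Finset.univ) = r * del D Z ^ m := by
  choose X hX hc using fun g : B D → Fin m => good_all w hm g (s g)
  set T := ⨆ n : ℕ → D.I → ℕ, ⨆ _ : seqOK m 1 n, UU w (ep 1) m n with hT
  have hmem : ∑ g ∈ Finset.univ.filter (fun g : B D → Fin m => ∃ b, (g b : ℕ) ≠ 0), X g ∈ T := by
    refine Submodule.sum_mem _ fun g hg => ?_
    exact Submodule.mem_iSup_of_mem _ (Submodule.mem_iSup_of_mem
      (seqOK_tyq g (Finset.mem_filter.1 hg).2) (hX g))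
  refine ⟨((Fintype.card (W D) : ℕ) : ℂ)⁻¹ • ∑ g ∈ Finset.univ.filter
    (fun g : B D → Fin m => ∃ b, (g b : ℕ) ≠ 0), X g, Submodule.smul_mem _ _ hmem, ?_⟩
  refine mul_right_cancel₀ (Delta_ne_zero (D := D) (Z := Z)) ?_
  rw [AddMonoidAlgebra.coeff_smul, Finsupp.smul_apply, AddMonoidAlgebra.coeff_sum,
    Finsupp.finsetSum_apply, Algebra.smul_mul_assoc, Finset.sum_mul,
    Finset.sum_congr rfl fun g _ => hc g, ← Finset.mul_sum, Finset.sum_comm]
  have h1 : ∀ σ : W D, ∑ g ∈ Finset.univ.filter (fun g : B D → Fin m => ∃ b, (g b : ℕ) ≠ 0),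
      act D Z σ (s g * (Rnc (fun b => (g b : ℕ)) * Wg w fun b => (g b : ℕ))) =
      r * Delta D Z := by
    intro σ
    rw [← map_sum, ← h, map_mul, hr, act_Delta]
  rw [Finset.sum_congr rfl fun σ _ => h1 σ, Finset.sum_const, Finset.card_univ, nsmul_eq_mul]
  have h4 : ((Fintype.card (W D) : ℕ) : S D Z) = algebraMap ℂ (S D Z) (Fintype.card (W D) : ℕ) :=
    (map_natCast _ _).symm
  have h5 : ((Fintype.card (W D) : ℕ) : ℂ) ≠ 0 := by
    exact_mod_cast Fintype.card_ne_zero
  rw [h4, ← Algebra.smul_def, mul_smul_comm, smul_smul, inv_mul_cancel₀ h5, one_smul]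
  ring

end

end Vale.Agent.P291.J
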